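import Vale.Agent.P318B.Lit

/-!
Definitions for P318: Sparsest Cut with demands on a prescribed set of pairs.
-/

namespace Vale.Agent.N318U

open Vale.Agent.P318 Vale.Agent.P318B Vale.Agent.P325

/-- An instance of nonuniform Sparsest Cut: capacities as in `Inst` and symmetric nonnegative
rational demands with zero diagonal. -/
structure NInst extends Inst where
  dem : Fin n → Fin n → ℚ
  isDem : IsCap fun i j => (dem i j : ℝ)

/-- The total weight of the pairs with one end in `S` and one end outside `S`. -/
noncomputable def cut {n : ℕ} (c : Fin n → Fin n → ℚ) (S : Finset (Fin n)) : ℝ :=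
  ∑ i ∈ S, ∑ j ∈ Sᶜ, (c i j : ℝ)

/-- The supply graph is unweighted, and the demands are unit demands on a nonempty set of
disjoint pairs. -/
def NInst.Simple (I : NInst) : Prop :=
  I.toInst.Simple ∧ (∀ i j, I.dem i j = 0 ∨ I.dem i j = 1) ∧ (∃ i j, I.dem i j = 1) ∧
    ∀ i j k, I.dem i j = 1 → I.dem i k = 1 → j = k

/-- The code: the matrix of capacities, then the matrix of demands. -/
def NInst.code (I : NInst) : List Bool :=
  pair I.toInst.code (codeList (List.ofFn fun i => codeList (List.ofFn fun j => codeQ (I.dem i j))))

/-- `A` is a factor `C` approximation algorithm on `Simple` instances: it outputs the indicator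
word of a cut which separates some demand and whose ratio capacity / demand is at most `C` times
the ratio of every such cut. -/
def NApprox (C : ℝ) (A : List Bool → List Bool) : Prop :=
  ∀ I : NInst, I.Simple → ∃ S : Finset (Fin I.n),
    A I.code = List.ofFn (fun i => decide (i ∈ S)) ∧ 0 < cut I.dem S ∧
      ∀ T, 0 < cut I.dem T → cut I.cap S / cut I.dem S ≤ C * (cut I.cap T / cut I.dem T)

/-- Every language in NP has a polynomial time map to pairs (number `t`, `Simple` instance) such
that on members some cut of capacity at most `t` separates all demand pairs, and on non-members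
every cut which separates at least a `β` fraction of the demand has capacity more than `C t`. -/
def NGapHard (C β : ℝ) : Prop :=
  ∀ L ∈ NP, ∃ (I : List Bool → NInst) (t : List Bool → ℕ),
    PolyTime (fun x => pair (t x).bits (I x).code) ∧ ∀ x, (I x).Simple ∧ 0 < t x ∧
      (x ∈ L → ∃ S, cut (I x).cap S ≤ t x ∧
        cut (I x).dem S = pairSum fun i j => ((I x).dem i j : ℝ)) ∧
      (x ∉ L → ∀ S, β * (pairSum fun i j => ((I x).dem i j : ℝ)) ≤ cut (I x).dem S →
        C * t x < cut (I x).cap S)

end Vale.Agent.N318U
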