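import Vale.Agent.N318U.Sub
import Vale.Agent.N318U.Defs
import Vale.Agent.P318B.Apx

/-!
From lists of arcs to the instances of the statement; the gap problem.
-/

namespace Vale.Agent.N318U

open Finset Vale.Agent.Lib.PCP Vale.Agent.Lib.PolyTime Vale.Agent.P325 Vale.Agent.N325M
  Vale.Agent.P318 Vale.Agent.P318B
open scoped BigOperators

/-- The multiplicity of an arc. -/
def mu (l : List (ℕ × ℕ)) (i j : ℕ) : ℕ := l.countP fun e => decide (e.1 = i) && decide (e.2 = j)

theorem mu_eq {l : List (ℕ × ℕ)} (h : l.Nodup) (i j : ℕ) :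
    mu l i j = if (i, j) ∈ l then 1 else 0 := by
  rw [← h.count, List.count, mu]
  exact List.countP_congr fun e _ => by simp [Prod.ext_iff]

/-- The adjacency matrix. -/
def ind (N : ℕ) (l : List (ℕ × ℕ)) (i j : Fin N) : ℚ := mu l i j

variable {N : ℕ} {l : List (ℕ × ℕ)}

theorem ind_symm (h : Sym N l) (i j : Fin N) : ind N l i j = ind N l j i := by
  rw [ind, ind, mu_eq h.nodup, mu_eq h.nodup]
  exact congrArg _ (if_congr ⟨h.swap _, h.swap _⟩ rfl rfl)

theorem ind_self (h : Sym N l) (i : Fin N) : ind N l i i = 0 := by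
  rw [ind, mu_eq h.nodup, if_neg fun a => h.ne _ a rfl, Nat.cast_zero]

theorem isCap_ind (h : Sym N l) : IsCap fun i j => (ind N l i j : ℝ) :=
  ⟨fun i j => congrArg _ (ind_symm h i j), fun i j => by simp [ind], fun i => by simp [ind_self h]⟩

theorem ind_or (h : Sym N l) (i j : Fin N) : ind N l i j = 0 ∨ ind N l i j = 1 := by
  rw [ind, mu_eq h.nodup]
  split_ifs <;> simp

theorem ind_one (h : Sym N l) {i j : Fin N} : ind N l i j = 1 ↔ ((i : ℕ), (j : ℕ)) ∈ l := by
  rw [ind, mu_eq h.nodup]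
  split_ifs with a <;> simp [a]

theorem sum_ind (h : Sym N l) (γ : ℕ → ℕ → ℝ) :
    ∑ i : Fin N, ∑ j : Fin N, (ind N l i j : ℝ) * γ i j = (l.map fun e => γ e.1 e.2).sum := by
  rw [← sum_count h.lt, sum_range]
  refine sum_congr rfl fun i _ => ?_
  rw [sum_range]
  simp [ind, mu]

theorem two_cut (h : Sym N l) (S : Finset (Fin N)) {f : ℕ → Bool}
    (hf : ∀ i : Fin N, f i = decide (i ∈ S)) : 2 * cut (ind N l) S = ct l f := by
  rw [ct_cast, ← sum_ind h fun p q => if f p = f q then 0 else 1, ← sum_add_sum_compl S, two_mul,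
    cut]
  congr 1
  · refine sum_congr rfl fun i hi => ?_
    rw [← sum_add_sum_compl S, sum_eq_zero (s := S) fun j hj => by simp [hf, hi, hj], zero_add]
    exact sum_congr rfl fun j hj => by simp [hf, hi, mem_compl.1 hj]
  · rw [sum_comm]
    refine sum_congr rfl fun i hi => ?_
    rw [← sum_add_sum_compl S, sum_eq_zero (s := Sᶜ) fun j hj => by
      simp [hf, mem_compl.1 hi, mem_compl.1 hj], add_zero]
    exact sum_congr rfl fun j hj => by simp [hf, mem_compl.1 hi, hj, ind_symm h i j]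

theorem two_pairSum (h : Sym N l) : 2 * pairSum (fun i j => (ind N l i j : ℝ)) = l.length := by
  have h1 := sum_ind h fun _ _ => 1
  rw [sum_map_const, one_mul] at h1
  have h2 : ∀ i j : Fin N, (ind N l i j : ℝ) * 1 = (if i < j then (ind N l i j : ℝ) else 0) +
      if j < i then (ind N l j i : ℝ) else 0 := fun i j => by
    rcases lt_trichotomy i j with a | a | a
    · simp [a, a.not_gt]
    · simp [a, ind_self h]
    · simp [a, a.not_gt, ind_symm h i j]
  simp only [h2, sum_add_distrib] at h1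
  rw [sum_comm (f := fun i j : Fin N => if j < i then (ind N l j i : ℝ) else 0)] at h1
  rw [← h1, two_mul, pairSum]
  simp only [sum_filter]

theorem two_le (h : Sym N l) (h0 : l ≠ []) : 2 ≤ N := by
  obtain ⟨e, he⟩ := List.exists_mem_of_ne_nil _ h0
  have := h.lt e he
  have := h.ne e he
  omega

/-- The instance with given supply arcs and demand arcs. -/
def mkI (N : ℕ) (E D : List (ℕ × ℕ)) (hE : Sym N E) (hD : Sym N D) (h0 : D ≠ []) : NInst where
  n := N
  two_le := two_le hD h0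
  cap := ind N E
  isCap := isCap_ind hE
  dem := ind N D
  isDem := isCap_ind hD

theorem simple_mkI {E D : List (ℕ × ℕ)} (hE : Sym N E) (hD : Sym N D) (h0 : D ≠ []) (hM : Mat D) :
    (mkI N E D hE hD h0).Simple := by
  refine ⟨ind_or hE, ind_or hD, ?_, fun i j k a b =>
    Fin.ext (hM _ ((ind_one hD).1 a) _ ((ind_one hD).1 b) rfl)⟩
  obtain ⟨e, he⟩ := List.exists_mem_of_ne_nil _ h0
  exact ⟨⟨e.1, (hD.lt e he).1⟩, ⟨e.2, (hD.lt e he).2⟩, (ind_one hD).2 he⟩

/-- The matrix as data. -/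
def matL (N : ℕ) (l : List (ℕ × ℕ)) : List (List (ℕ × ℕ)) :=
  (List.range N).map fun i => (List.range N).map fun j => (mu l i j, 1)

theorem enc_matL (N : ℕ) (l : List (ℕ × ℕ)) : enc (matL N l) =
    codeList (List.ofFn fun i => codeList (List.ofFn fun j => codeQ (ind N l i j))) := by
  have h1 : ∀ {α : Type} (φ : ℕ → α), (List.range N).map φ = List.ofFn fun i : Fin N => φ i :=
    fun φ => by rw [List.ofFn_eq_map, ← List.map_coe_finRange_eq_range, List.map_map]; rfl
  rw [← codeList_eq, matL, h1, List.map_ofFn]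
  congr 2
  funext i
  rw [Function.comp_apply, ← codeList_eq, h1, List.map_ofFn]
  congr 2
  funext j
  rw [Function.comp_apply, ← Ax.enc_nd]
  simp [Ax.nd, ind]

theorem code_mkI {E D : List (ℕ × ℕ)} (hE : Sym N E) (hD : Sym N D) (h0 : D ≠ []) :
    (mkI N E D hE hD h0).code = enc (matL N E, matL N D) := by
  rw [enc_pair, enc_matL, enc_matL, ← pair_eq_pr]
  rfl

theorem PT_matL {α : Type} [Enc α] {n : α → Un} {l : α → List (ℕ × ℕ)} (hn : PT ∅ n)
    (hl : PT ∅ l) : PT ∅ fun a => matL (n a).v (l a) := by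
  have hr := PT.range hn.unVal (PBd.unVal hn)
  exact PT.map hr (PT.map (hr.comp PT.fst') (PT.pair (PT.countP (hl.comp PT.fst'.fst)
    ((PT.eqNat PT.snd'.fst PT.fst'.fst.snd).and (PT.eqNat PT.snd'.snd PT.fst'.snd))) (PT.const 1)))

theorem yes_cut {E D : List (ℕ × ℕ)} (hE : Sym N E) (hD : Sym N D) {t : ℕ} {f : ℕ → Bool}
    (f1 : ∀ e ∈ D, f e.1 ≠ f e.2) (f2 : ct E f ≤ 2 * t) : ∃ S : Finset (Fin N),
    cut (ind N E) S ≤ t ∧ cut (ind N D) S = pairSum fun i j => (ind N D i j : ℝ) := by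
  have h1 := two_cut hE (univ.filter fun i => f i = true) (f := f) fun i => by simp
  have h2 := two_cut hD (univ.filter fun i => f i = true) (f := f) fun i => by simp
  have h3 := two_pairSum hD
  have h4 : ct D f = D.length := List.countP_eq_length.2 fun e he => by simpa using f1 e he
  rw [← Nat.cast_le (α := ℝ)] at f2
  push_cast at f2
  rw [h4] at h2
  exact ⟨univ.filter fun i => f i = true, by linarith, by linarith⟩

theorem no_cut {E D : List (ℕ × ℕ)} (hE : Sym N E) (hD : Sym N D) {t : ℕ} {C β : ℝ}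
    (h : ∀ f : ℕ → Bool, β * D.length ≤ ct D f → C * ((2 : ℕ) * t) < ct E f) (S : Finset (Fin N))
    (hS : β * (pairSum fun i j => (ind N D i j : ℝ)) ≤ cut (ind N D) S) :
    C * t < cut (ind N E) S := by
  obtain ⟨f, hf⟩ : ∃ f : ℕ → Bool, ∀ i : Fin N, f i = decide (i ∈ S) :=
    ⟨fun i => if h : i < N then decide (⟨i, h⟩ ∈ S) else false, fun i => by simp⟩
  have h1 := two_cut hE S hf
  have h2 := two_cut hD S hf
  have h3 := two_pairSum hD
  have h4 := h f (by rw [← h2, ← h3]; linarith)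
  push_cast at h4
  linarith

theorem gapHard (C : ℝ) {β : ℝ} (hβ : 0 < β) : NGapHard C β := fun L hL => by
  obtain ⟨g, hg, g1, g2⟩ := (cookLevin L hL).trans (hard_sym C hβ)
  have h0 : ∀ x : List Bool, WD (g ⟨x⟩) ∧ Sym (g ⟨x⟩).2.1.v (g ⟨x⟩).2.2.1 := fun x => by
    by_cases hx : x ∈ L
    · exact (g1 ⟨x⟩ hx).1
    · exact (g2 ⟨x⟩ hx).1
  refine ⟨fun x => mkI _ _ _ (h0 x).2 (h0 x).1.sym (h0 x).1.ne, fun x => (g ⟨x⟩).1, ?_,
    fun x => ⟨simple_mkI _ _ _ (h0 x).1.mat, (h0 x).1.pos, fun hx => ?_, fun hx S hS => ?_⟩⟩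
  · obtain ⟨u, hu, hu'⟩ := hg.fst.pair ((PT_matL hg.snd.fst hg.snd.snd.fst).pair
      (PT_matL hg.snd.fst hg.snd.snd.snd))
    refine polyTime_iff.2 (hu.congr fun x => ?_)
    rw [code_mkI, pair_eq_pr]
    exact hu' ⟨x⟩
  · obtain ⟨f, f1, f2⟩ := (g1 ⟨x⟩ hx).2
    exact yes_cut (h0 x).2 (h0 x).1.sym f1 f2
  · exact no_cut (h0 x).2 (h0 x).1.sym (g2 ⟨x⟩ hx).2 S hS

end Vale.Agent.N318U
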