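import Vale.Agent.N318U.Conv

/-!
An approximation algorithm for the sparsest cut decides the gap problem: the separated demands are
removed until at most half of them is left.
-/

namespace Vale.Agent.N318U

open Finset Vale.Agent.Lib.PCP Vale.Agent.Lib.PolyTime Vale.Agent.P325 Vale.Agent.P318B
open scoped BigOperators

theorem ct_cons (e : ℕ × ℕ) (l : List (ℕ × ℕ)) (f : ℕ → Bool) :
    ct (e :: l) f = ct l f + if (f e.1 != f e.2) = true then 1 else 0 := List.countP_cons

theorem ct_xor (l : List (ℕ × ℕ)) (f g : ℕ → Bool) :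
    ct l (fun i => g i != f i) ≤ ct l g + ct l f := by
  induction l with
  | nil => simp [ct]
  | cons e l ih =>
    simp only [ct_cons]
    cases f e.1 <;> cases f e.2 <;> cases g e.1 <;> cases g e.2 <;> simp <;> omega

theorem exists_good (D : List (ℕ × ℕ)) (p : ℕ × ℕ → Bool) {L : List (ℕ → Bool)} (hL : L ≠ [])
    (h : ∀ e, p e = false → 2 * L.countP (fun g => g e.1 != g e.2) = L.length) :
    ∃ g ∈ L, D.countP (fun e => !p e) ≤ 2 * ct D g := by
  refine List.exists_le_of_sum_le hL (fun _ => D.countP fun e => !p e) (fun g => 2 * ct D g) ?_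
  induction D with
  | nil => simp
  | cons e D ih =>
    simp only [ct_cons, List.countP_cons, mul_add, List.sum_map_add]
    refine add_le_add ih ?_
    have h1 : ∀ (q : (ℕ → Bool) → Bool) (L : List (ℕ → Bool)),
        (L.map fun g => if q g = true then 1 else 0).sum = L.countP q := fun q L => by
      induction L with
      | nil => rfl
      | cons g L ih => rw [List.countP_cons, List.map_cons, List.sum_cons, ih, add_comm]
    rw [List.sum_map_mul_left, h1 (fun g => g e.1 != g e.2)]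
    cases hp : p e
    · simp [h e hp]
    · simp

/-- The cut given by a word. -/
def sd (s : List Bool) (i : ℕ) : Bool := s.getD i false

/-- The answer of the algorithm for the remaining demands `l`. -/
def ans (A : List Bool → List Bool) (G : Dat) (l : List (ℕ × ℕ)) : ℕ → Bool :=
  sd (A (enc (matL G.2.1.v G.2.2.1, matL G.2.1.v l)))

/-- One round. -/
def step (A : List Bool → List Bool) (G : Dat) (st : List (ℕ × ℕ) × ℕ) : List (ℕ × ℕ) × ℕ :=
  if G.2.2.2.length ≤ 2 * st.1.length then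
    (st.1.filter fun e => !(ans A G st.1 e.1 != ans A G st.1 e.2), st.2 + ct G.2.2.1 (ans A G st.1))
  else st

/-- The total capacity of the cuts. -/
def total (A : List Bool → List Bool) (G : Dat) : ℕ :=
  ((step A G)^[G.2.2.2.length] (G.2.2.2, 0)).2

theorem PT_total {A : List Bool → List Bool} (hA : PolyTime A) : PT ∅ (total A) := by
  have h2 : PT ∅ fun x : Raw => Raw.mk (A x.w) := ⟨_, polyTime_iff.1 hA, fun _ => rfl⟩
  have h3 : PT ∅ fun p : Dat × List (ℕ × ℕ) × ℕ =>
      A (enc (matL p.1.2.1.v p.1.2.2.1, matL p.1.2.1.v p.2.1)) :=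
    PT.listOfRaw (h2.comp (PT_raw ((PT_matL PT.fst'.snd.fst PT.fst'.snd.snd.fst).pair
      (PT_matL PT.fst'.snd.fst PT.snd'.fst))))
  have h4 : PT ∅ fun q : (Dat × List (ℕ × ℕ) × ℕ) × ℕ × ℕ =>
      (ans A q.1.1 q.1.2.1 q.2.1 != ans A q.1.1 q.1.2.1 q.2.2) :=
    PT.xor (PT.getD (h3.comp PT.fst') PT.snd'.fst (PT.const false))
      (PT.getD (h3.comp PT.fst') PT.snd'.snd (PT.const false))
  have h5 : PT ∅ fun p : Dat × List (ℕ × ℕ) × ℕ => step A p.1 p.2 :=
    PT.ite (PT.le PT.fst'.snd.snd.snd.length PT.snd'.fst.length.double)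
      ((PT.filter PT.snd'.fst h4.not).pair (PT.snd'.snd.add (PT.countP PT.fst'.snd.snd.fst h4)))
      PT.snd'
  have hD : PT ∅ fun G : Dat => G.2.2.2 := PT.snd'.snd.snd
  have hE : PT ∅ fun G : Dat => G.2.2.1 := PT.snd'.snd.fst
  refine (PT.iterate' hD.length (PBd.length hD) (hD.pair (PT.const 0)) h5
    ((((PBd.const 2).mul hD.pbd).add ((PBd.length hD).mul (PBd.length hE))).add (PBd.const 1))
    fun G j hj => ?_).snd
  have h6 : ∀ j, ((step A G)^[j] (G.2.2.2, 0)).1.Sublist G.2.2.2 ∧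
      ((step A G)^[j] (G.2.2.2, 0)).2 ≤ j * G.2.2.1.length := fun j => by
    induction j with
    | zero => simp
    | succ j ih =>
      rw [Function.iterate_succ_apply', step, Nat.add_one_mul j]
      split_ifs
      · exact ⟨List.filter_sublist.trans ih.1, add_le_add ih.2 List.countP_le_length⟩
      · exact ⟨ih.1, ih.2.trans (Nat.le_add_right _ _)⟩
  have h7 := esize_le_of_sublist (h6 j).1
  have h8 := ((esize_nat_le_self _).trans (h6 j).2).trans (Nat.mul_le_mul_right _ hj)
  rw [← Prod.mk.eta (p := (step A G)^[j] (G.2.2.2, 0)), esize_pair]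
  omega

variable {A : List Bool → List Bool} {c : ℕ} {G : Dat}

theorem one_step (hA : NApprox c A) (hE : Sym G.2.1.v G.2.2.1) {l : List (ℕ × ℕ)}
    (hl : Sym G.2.1.v l) (hM : Mat l) (h0 : l ≠ []) : 0 < ct l (ans A G l) ∧ ∀ g, 0 < ct l g →
      ct G.2.2.1 (ans A G l) * ct l g ≤ c * (ct G.2.2.1 g * ct l (ans A G l)) := by
  obtain ⟨S, s1, s2, s3⟩ : ∃ S : Finset (Fin G.2.1.v),
      A (mkI _ _ _ hE hl h0).code = List.ofFn (fun i => decide (i ∈ S)) ∧ 0 < cut (ind _ l) S ∧
      ∀ T : Finset (Fin G.2.1.v), 0 < cut (ind _ l) T → cut (ind _ G.2.2.1) S / cut (ind _ l) S ≤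
        c * (cut (ind _ G.2.2.1) T / cut (ind _ l) T) := hA _ (simple_mkI hE hl h0 hM)
  have hf : ∀ i : Fin G.2.1.v, ans A G l i = decide (i ∈ S) := fun i => by
    rw [ans, ← code_mkI hE hl h0, s1, sd, List.getD_eq_getElem _ _ (by simp), List.getElem_ofFn]
  have h1 := two_cut hE S hf
  have h2 := two_cut hl S hf
  refine ⟨by rw [← Nat.cast_pos (α := ℝ)]; linarith, fun g hg => ?_⟩
  have h3 := two_cut hE (univ.filter fun i => g i = true) (f := g) fun i => by simp
  have h4 := two_cut hl (univ.filter fun i => g i = true) (f := g) fun i => by simp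
  rw [← Nat.cast_pos (α := ℝ)] at hg
  have h5 : 0 < cut (ind _ l) (univ.filter fun i : Fin G.2.1.v => g i = true) := by linarith
  have h6 := s3 _ h5
  rw [← mul_div_assoc, div_le_div_iff₀ s2 h5] at h6
  rw [← Nat.cast_le (α := ℝ)]
  push_cast
  rw [← h1, ← h2, ← h3, ← h4]
  linarith

/-- The invariant of the loop. -/
def Inv (c : ℕ) (G : Dat) (j : ℕ) (st : List (ℕ × ℕ) × ℕ) : Prop :=
  ∃ p : ℕ × ℕ → Bool, st.1 = G.2.2.2.filter p ∧ (∀ e : ℕ × ℕ, p (e.2, e.1) = p e) ∧
    (2 * st.1.length < G.2.2.2.length ∨ st.1.length + j ≤ G.2.2.2.length) ∧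
    (∀ g : ℕ → Bool, (∀ e ∈ G.2.2.2, g e.1 ≠ g e.2) → st.2 * G.2.2.2.length +
      2 * c * ct G.2.2.1 g * st.1.length ≤ 2 * c * ct G.2.2.1 g * G.2.2.2.length) ∧
    ∃ L : List (ℕ → Bool), L ≠ [] ∧ (∀ g ∈ L, ct G.2.2.1 g ≤ st.2) ∧
      ∀ e, p e = false → 2 * L.countP (fun g => g e.1 != g e.2) = L.length

theorem inv_step (hA : NApprox c A) (hW : WD G) (hE : Sym G.2.1.v G.2.2.1) {j : ℕ}
    {st : List (ℕ × ℕ) × ℕ} (h : Inv c G j st) : Inv c G (j + 1) (step A G st) := by
  obtain ⟨p, p1, p2, p3, p4, L, L0, L1, L2⟩ := h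
  rw [step]
  split_ifs with hc
  swap
  · exact ⟨p, p1, p2, Or.inl (not_le.1 hc), p4, L, L0, L1, L2⟩
  have hD := List.length_pos_iff.2 hW.ne
  have hm : ∀ e ∈ st.1, e ∈ G.2.2.2 := fun e he => (List.mem_filter.1 (p1 ▸ he)).1
  obtain ⟨s1, s2⟩ := one_step (l := st.1) hA hE ⟨p1 ▸ hW.sym.nodup.filter _,
    fun e he => hW.sym.lt e (hm e he), fun e he => hW.sym.ne e (hm e he), fun e he => by
      rw [p1, List.mem_filter] at he ⊢
      exact ⟨hW.sym.swap e he.1, (p2 e).trans he.2⟩⟩
    (fun e he e' he' => hW.mat e (hm e he) e' (hm e' he')) (List.length_pos_iff.1 (by omega))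
  generalize ans A G st.1 = f at s1 s2 ⊢
  have h1 : (st.1.filter fun e => !(f e.1 != f e.2)).length + ct st.1 f = st.1.length := by
    rw [← List.countP_eq_length_filter, ct, add_comm,
      List.length_eq_countP_add_countP (fun e => f e.1 != f e.2)]
    exact congrArg _ (List.countP_congr fun e _ => by simp)
  refine ⟨fun e => !(f e.1 != f e.2) && p e, by rw [p1, List.filter_filter], fun e => ?_,
    Or.inr (by dsimp only; omega), fun g hg => ?_, L ++ L.map fun g i => g i != f i, by simpa using L0,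
    fun g hg => ?_, fun e he => ?_⟩
  · simp only [p2]
    cases f e.1 <;> cases f e.2 <;> rfl
  · have h2 : ct st.1 g = st.1.length :=
      List.countP_eq_length.2 fun e he => by simpa using hg e (hm e he)
    have h3 := s2 g (by omega)
    have h4 := p4 g hg
    have h5 := Nat.mul_le_mul_left (ct G.2.2.1 f) hc
    rw [h2] at h3
    dsimp only
    rw [← h1] at h4
    nlinarith
  · rcases List.mem_append.1 hg with a | a
    · exact (L1 g a).trans (Nat.le_add_right _ _)
    · obtain ⟨g', a', rfl⟩ := List.mem_map.1 a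
      exact (ct_xor _ _ _).trans (Nat.add_le_add_right (L1 g' a') _)
  · rw [List.countP_append, List.countP_map, List.length_append, List.length_map]
    have h2 := List.length_eq_countP_add_countP (fun g : ℕ → Bool => g e.1 != g e.2) (l := L)
    by_cases a : f e.1 = f e.2
    · have h3 := L2 e (by simpa [a] using he)
      have h4 : L.countP ((fun g : ℕ → Bool => g e.1 != g e.2) ∘ fun g i => g i != f i) =
          L.countP fun g => g e.1 != g e.2 := List.countP_congr fun g _ => by
        simp only [Function.comp_apply, a]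
        cases g e.1 <;> cases g e.2 <;> cases f e.2 <;> simp
      omega
    · have h4 : L.countP ((fun g : ℕ → Bool => g e.1 != g e.2) ∘ fun g i => g i != f i) =
          L.countP fun g => decide ¬(g e.1 != g e.2) = true := List.countP_congr fun g _ => by
        simp only [Function.comp_apply]
        revert a
        cases g e.1 <;> cases g e.2 <;> cases f e.1 <;> cases f e.2 <;> simp
      omega

theorem inv_iter (hA : NApprox c A) (hW : WD G) (hE : Sym G.2.1.v G.2.2.1) (j : ℕ) :
    Inv c G j ((step A G)^[j] (G.2.2.2, 0)) := by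
  induction j with
  | zero => exact ⟨fun _ => true, by simp, fun _ => rfl, Or.inr le_rfl, fun g _ => by simp,
      [fun _ => false], by simp, by simp [ct], by simp⟩
  | succ j ih =>
    rw [Function.iterate_succ_apply']
    exact inv_step hA hW hE ih

theorem total_spec (hA : NApprox c A) :
    ((SC Sym 2 (2 * c) (1 / 4)).yes G → total A G ≤ 4 * c * G.1) ∧
      ((SC Sym 2 (2 * c) (1 / 4)).no G → 4 * c * G.1 < total A G) := by
  refine ⟨fun ⟨⟨hW, hE⟩, f, f1, f2⟩ => ?_, fun ⟨⟨hW, hE⟩, hf⟩ => ?_⟩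
  · obtain ⟨p, -, -, -, p4, -⟩ := inv_iter hA hW hE G.2.2.2.length
    have h1 := Nat.le_of_mul_le_mul_right ((Nat.le_add_right _ _).trans (p4 f f1))
      (List.length_pos_iff.2 hW.ne)
    have h2 := Nat.mul_le_mul_left (2 * c) f2
    rw [total]
    linarith
  · obtain ⟨p, p1, -, p3, -, L, L0, L1, L2⟩ := inv_iter hA hW hE G.2.2.2.length
    obtain ⟨g, g1, g2⟩ := exists_good G.2.2.2 p L0 L2
    have hD := List.length_pos_iff.2 hW.ne
    have h1 := List.length_eq_countP_add_countP p (l := G.2.2.2)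
    rw [p1, ← List.countP_eq_length_filter] at p3
    have h2 : G.2.2.2.countP (fun e => decide ¬p e = true) = G.2.2.2.countP fun e => !p e :=
      List.countP_congr fun e _ => by simp
    have h3 : G.2.2.2.length ≤ 4 * ct G.2.2.2 g := by omega
    have h4 := hf g (by
      rw [← Nat.cast_le (α := ℝ)] at h3
      push_cast at h3
      linarith)
    have h5 := (Nat.cast_le (α := ℝ)).2 (L1 g g1)
    rw [← Nat.cast_lt (α := ℝ), total]
    push_cast at h4 ⊢
    linarith

theorem NApprox.mono {C C' : ℝ} (h : NApprox C A) (hC : C ≤ C') : NApprox C' A := fun I hI => by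
  obtain ⟨S, s1, s2, s3⟩ := h I hI
  refine ⟨S, s1, s2, fun T hT => (s3 T hT).trans (mul_le_mul_of_nonneg_right hC
    (div_nonneg (sum_nonneg fun i _ => sum_nonneg fun j _ => I.isCap.2.1 i j) hT.le))⟩

theorem np_of_napprox (C : ℝ) (h : ∃ A, PolyTime A ∧ NApprox C A) : NP ⊆ P := fun L hL => by
  obtain ⟨A, hA, ha⟩ := h
  obtain ⟨c, hc⟩ := exists_nat_ge C
  obtain ⟨g, hg, g1, g2⟩ := (cookLevin L hL).trans (hard_sym (2 * c) (β := 1 / 4) (by norm_num))
  obtain ⟨u, hu, hu'⟩ := (PT.le (PT_total hA) ((PT.const (4 * c)).mul PT.fst')).comp hg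
  refine ⟨u, polyTime_iff.2 hu, fun x => ?_⟩
  have e : u x = [decide (total A (g ⟨x⟩) ≤ 4 * c * (g ⟨x⟩).1)] := hu' ⟨x⟩
  rw [e, List.singleton_inj, decide_eq_true_iff]
  exact ⟨fun hx => (total_spec (ha.mono hc)).1 (g1 ⟨x⟩ hx), fun hr => by_contra fun hx =>
    absurd ((total_spec (ha.mono hc)).2 (g2 ⟨x⟩ hx)) (not_lt.2 hr)⟩

end Vale.Agent.N318U
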