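import Vale.Agent.N318U.Sound
import Vale.Agent.N325M.Main

/-!
The promise problem on lists of pairs and the reduction from unique games.
-/

namespace Vale.Agent.N318U

open Finset Vale.Agent.Lib.PCP Vale.Agent.Lib.PolyTime Vale.Agent.P325 Vale.Agent.N325
  Vale.Agent.N325M
open scoped BigOperators

/-- The number of entries whose ends are separated by `f`. -/
def ct (l : List (ℕ × ℕ)) (f : ℕ → Bool) : ℕ := l.countP fun e => f e.1 != f e.2

theorem ct_cast (l : List (ℕ × ℕ)) (f : ℕ → Bool) :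
    (ct l f : ℝ) = (l.map fun e => if f e.1 = f e.2 then (0 : ℝ) else 1).sum := by
  rw [ct, countP_eq_sum]
  congr 1
  refine List.map_congr_left fun e _ => ?_
  cases f e.1 <;> cases f e.2 <;> simp

/-- The list of the arcs of a simple graph on the numbers below `N`. -/
structure Sym (N : ℕ) (l : List (ℕ × ℕ)) : Prop where
  nodup : l.Nodup
  lt : ∀ e ∈ l, e.1 < N ∧ e.2 < N
  ne : ∀ e ∈ l, e.1 ≠ e.2
  swap : ∀ e ∈ l, (e.2, e.1) ∈ l

/-- The pairs are disjoint. -/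
def Mat (l : List (ℕ × ℕ)) : Prop := ∀ e ∈ l, ∀ e' ∈ l, e.1 = e'.1 → e.2 = e'.2

/-- Threshold, number of vertices, supply edges, demand pairs. -/
abbrev Dat : Type := ℕ × Un × List (ℕ × ℕ) × List (ℕ × ℕ)

/-- The part of the well-formedness which concerns the threshold and the demands. -/
structure WD (G : Dat) : Prop where
  pos : 0 < G.1
  sym : Sym G.2.1.v G.2.2.2
  mat : Mat G.2.2.2
  ne : G.2.2.2 ≠ []

/-- The promise problem; `R` is the condition on the supply edges, each of which is counted `k`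
times. -/
def SC (R : ℕ → List (ℕ × ℕ) → Prop) (k : ℕ) (C β : ℝ) : Promise Dat where
  yes G := (WD G ∧ R G.2.1.v G.2.2.1) ∧ ∃ f : ℕ → Bool, (∀ e ∈ G.2.2.2, f e.1 ≠ f e.2) ∧
    ct G.2.2.1 f ≤ k * G.1
  no G := (WD G ∧ R G.2.1.v G.2.2.1) ∧ ∀ f : ℕ → Bool, β * G.2.2.2.length ≤ ct G.2.2.2 f →
    C * (k * G.1) < ct G.2.2.1 f

/-- The ends are in range. -/
def InRange (N : ℕ) (l : List (ℕ × ℕ)) : Prop := ∀ e ∈ l, e.1 < N ∧ e.2 < N

theorem nodup_blow {α β T : Type} [Fintype T] {φ : α → T → β} {l : List α} (hl : l.Nodup)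
    (h : ∀ a t a' t', φ a t = φ a' t' → a = a' ∧ t = t') : (blow T φ l).Nodup := by
  rw [blow, List.nodup_flatMap]
  refine ⟨fun a _ => (nodup_toList _).map fun t t' e => (h _ _ _ _ e).2, hl.imp fun {a a'} hne => ?_⟩
  intro b h1 h2
  obtain ⟨t, -, rfl⟩ := List.mem_map.1 h1
  obtain ⟨t', -, e⟩ := List.mem_map.1 h2
  exact hne (h _ _ _ _ e).1.symm

theorem mem_blow' {α β T : Type} [Fintype T] (φ : α → T → β) {l : List α} {a : α} (h : a ∈ l)
    (t : T) : φ a t ∈ blow T φ l := by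
  simp only [blow, List.mem_flatMap, List.mem_map]
  exact ⟨a, h, t, by simp, rfl⟩

section Red

variable {Γ W : Type} [Group Γ] [Fintype Γ] [DecidableEq Γ] [Fintype W] [Nonempty W] {ρ : ℝ}

omit [Group Γ] [Fintype Γ] [DecidableEq Γ] in
theorem sum_right {I : Inst Γ} {d d' : ℕ} (h : WF I d d') (ψ : ℕ → ℝ) :
    (I.2.2.map fun e => ψ e.2.1).sum = d' * ∑ v ∈ range I.2.1.v, ψ v := by
  have h1 : ∀ v ∈ range I.2.1.v, d' * ψ v =
      (I.2.2.map fun e => if e.2.1 = v then ψ v else 0).sum := fun v hv => by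
    rw [← h.right v (mem_range.1 hv), countP_eq_sum, ← List.sum_map_mul_right]
    simp
  rw [mul_sum, sum_congr rfl h1, ← sum_map_finset_sum]
  congr 1
  refine List.map_congr_left fun e he => ?_
  simp [(h.lt e he).2]

/-- The demand pairs: antipodal points of the cubes. -/
noncomputable def demL (Γ : Type) [Fintype Γ] [DecidableEq Γ] (n : ℕ) : List (ℕ × ℕ) :=
  blow (Γ → Bool) (fun v x => (num v x, num v (not ∘ x))) (List.range n)

omit [Group Γ] in
theorem num_inj {v v' : ℕ} {x x' : Γ → Bool} (h : num v x = num v' x') : v = v' ∧ x = x' :=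
  ⟨by rw [← num_div v x, h, num_div], by rw [← pt_num v x, h, pt_num]⟩

theorem wd_demL {n t : ℕ} (ht : 0 < t) (hn : 0 < n) (E : List (ℕ × ℕ)) :
    WD (t, ⟨n * Fintype.card (Γ → Bool)⟩, E, demL Γ n) := by
  refine ⟨ht, ⟨nodup_blow List.nodup_range fun _ _ _ _ e => num_inj (Prod.ext_iff.1 e).1,
    fun e he => ?_, fun e he => ?_, fun e he => ?_⟩, fun e he e' he' h => ?_,
    blow_ne_nil _ (by simpa using hn.ne')⟩
  · obtain ⟨v, hv, x, rfl⟩ := mem_blow he
    exact ⟨num_lt (List.mem_range.1 hv) _, num_lt (List.mem_range.1 hv) _⟩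
  · obtain ⟨v, hv, x, rfl⟩ := mem_blow he
    intro e
    simpa using congrFun (num_inj e).2 1
  · obtain ⟨v, hv, x, rfl⟩ := mem_blow he
    have h1 := mem_blow' (fun v (x : Γ → Bool) => (num v x, num v (not ∘ x))) hv (not ∘ x)
    have h2 : not ∘ not ∘ x = x := funext fun _ => Bool.not_not _
    rwa [h2] at h1
  · obtain ⟨v, hv, x, rfl⟩ := mem_blow he
    obtain ⟨v', hv', x', rfl⟩ := mem_blow he'
    obtain ⟨rfl, rfl⟩ := num_inj h
    rfl

omit [Group Γ] in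
theorem sep_le (g : (Γ → Bool) → Bool) : 𝔼 x, (if g x = g (not ∘ x) then (0 : ℝ) else 1) ≤
    4 * ((𝔼 x, if g x = true then (1 : ℝ) else 0) * (1 - 𝔼 x, if g x = true then (1 : ℝ) else 0)) := by
  have h1 : 𝔼 x : Γ → Bool, (if g (not ∘ x) = true then (1 : ℝ) else 0) =
      𝔼 x, if g x = true then (1 : ℝ) else 0 :=
    Fintype.expect_equiv ((Equiv.refl Γ).arrowCongr Bool.involutive_not.toPerm) _ _ fun _ => rfl
  have h2 : 𝔼 x, (if g x = g (not ∘ x) then (0 : ℝ) else 1) ≤ 𝔼 x : Γ → Bool,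
      ((if g x = true then (1 : ℝ) else 0) + if g (not ∘ x) = true then (1 : ℝ) else 0) :=
    expect_le_expect fun x _ => by cases g x <;> cases g (not ∘ x) <;> simp
  have h3 : 𝔼 x, (if g x = g (not ∘ x) then (0 : ℝ) else 1) ≤ 𝔼 x : Γ → Bool,
      (2 - ((if g x = true then (1 : ℝ) else 0) + if g (not ∘ x) = true then (1 : ℝ) else 0)) :=
    expect_le_expect fun x _ => by cases g x <;> cases g (not ∘ x) <;> norm_num
  rw [expect_sub_distrib, Fintype.expect_const] at h3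
  rw [expect_add_distrib, h1] at h2 h3
  have h4 : 0 ≤ 𝔼 x, (if g x = g (not ∘ x) then (0 : ℝ) else 1) :=
    expect_nonneg fun _ _ => by split_ifs <;> norm_num
  rcases le_total (𝔼 x, if g x = true then (1 : ℝ) else 0) (1 / 2) with h | h <;> nlinarith

/-- The supply edge for a pair of equations and a noise pattern. -/
noncomputable def supE (P : Cor Bool W ρ) (q : ℕ) (p : (ℕ × ℕ × Γ) × ℕ × ℕ × Γ)
    (t : (Γ → W) × Fin q) : ℕ × ℕ :=
  (num p.1.2.1 (sh p.1.2.2 (P.X ∘ t.1)), num p.2.2.1 (sh p.2.2.2 (P.Y ∘ t.1)))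

omit [Nonempty W] in
theorem ct_supE (P : Cor Bool W ρ) {q : ℕ} (hq : 0 < q) (l : List ((ℕ × ℕ × Γ) × ℕ × ℕ × Γ))
    (f : ℕ → Bool) : (ct (blow _ (supE P q) l) f : ℝ) = q * (Fintype.card (Γ → W) *
      (l.map fun p => 𝔼 w : Γ → W, if f (num p.1.2.1 (sh p.1.2.2 (P.X ∘ w))) =
        f (num p.2.2.1 (sh p.2.2.2 (P.Y ∘ w))) then (0 : ℝ) else 1).sum) := by
  have : Nonempty (Fin q) := ⟨⟨0, hq⟩⟩
  rw [ct_cast, sum_blow', Fintype.card_prod, Fintype.card_fin, Nat.cast_mul, mul_comm _ (q : ℝ),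
    mul_assoc]
  congr 3
  refine List.map_congr_left fun p _ => ?_
  rw [← univ_product_univ, expect_product]
  exact expect_congr rfl fun w _ => Fintype.expect_const (ι := Fin q)
    (if f (num p.1.2.1 (sh p.1.2.2 (P.X ∘ w))) = f (num p.2.2.1 (sh p.2.2.2 (P.Y ∘ w)))
      then (0 : ℝ) else 1)

theorem sc_yes (P : Cor Bool W ρ) (h0 : 0 ≤ ρ) {q : ℕ} {η : ℝ} (hq : 0 < q)
    (c1 : q * (1 - (1 - 2 * η) * ((1 + ρ) / 2)) ≤ 1) {I : Inst Γ} {d : ℕ} (h : WF I d d)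
    {F : (ℕ → Γ) × (ℕ → Γ)} (hF : (1 - η) * I.2.2.length ≤ (cnt satG I.2.2 F : ℝ)) :
    ct (blow _ (supE P q) (prs I.2.2)) (fun i => pt Γ Bool i (F.2 (i / Fintype.card (Γ → Bool)))) ≤
      1 * (Fintype.card (Γ → W) * (prs I.2.2).length) := by
  have hq' : (0 : ℝ) < q := Nat.cast_pos.2 hq
  have hK : (0 : ℝ) < Fintype.card (Γ → W) := Nat.cast_pos.2 Fintype.card_pos
  rw [← Nat.cast_le (α := ℝ), ct_supE P hq]
  obtain ⟨φ, hφ⟩ : ∃ φ : (ℕ × ℕ × Γ) × ℕ × ℕ × Γ → ℝ, φ = fun p => 𝔼 w : Γ → W,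
    if pt Γ Bool (num p.1.2.1 (sh p.1.2.2 (P.X ∘ w)))
        (F.2 (num p.1.2.1 (sh p.1.2.2 (P.X ∘ w)) / Fintype.card (Γ → Bool))) =
      pt Γ Bool (num p.2.2.1 (sh p.2.2.2 (P.Y ∘ w)))
        (F.2 (num p.2.2.1 (sh p.2.2.2 (P.Y ∘ w)) / Fintype.card (Γ → Bool)))
      then (0 : ℝ) else 1 := ⟨_, rfl⟩
  rw [← hφ]
  have h2 := good_prs h (a := (1 + ρ) / 2) (by positivity) hF (fun p => 1 + -1 * φ p)
    (fun p => by
      have : φ p ≤ 1 := by
        rw [hφ]
        exact expect_le univ_nonempty fun _ _ => by split_ifs <;> norm_num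
      linarith)
    fun p hp => le_of_eq (by
      have h1 := P.eq_prob
      rw [Fintype.card_bool, ← expect_coord (fun w => if P.Y w = P.X w then (1 : ℝ) else 0)
        (p.1.2.2⁻¹ * F.2 p.1.2.1)] at h1
      have h3 : φ p = 𝔼 w : Γ → W, (1 - if P.Y (w (p.1.2.2⁻¹ * F.2 p.1.2.1)) =
          P.X (w (p.1.2.2⁻¹ * F.2 p.1.2.1)) then (1 : ℝ) else 0) := by
        rw [hφ]
        refine expect_congr rfl fun w _ => ?_
        simp only [pt_num, num_div, sh, Function.comp_apply, Equiv.coe_mulLeft, ← hp]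
        cases P.Y _ <;> cases P.X _ <;> simp
      rw [h3, expect_sub_distrib, Fintype.expect_const, h1]
      push_cast
      ring)
  rw [List.sum_map_add, sum_map_const, List.sum_map_mul_left] at h2
  push_cast
  have h3 := mul_le_mul_of_nonneg_right c1 (Nat.cast_nonneg (α := ℝ) (prs I.2.2).length)
  rw [mul_left_comm, one_mul]
  refine mul_le_mul_of_nonneg_left ?_ hK.le
  nlinarith [mul_le_mul_of_nonneg_left h2 hq'.le]

theorem sc_no {B : Bas Bool} {P : Cor Bool W ρ}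
    {D q : ℕ} {τ a m κ s C β : ℝ} (hτ : 0 < τ) (a0 : 0 ≤ a) (a1 : a ≤ 1) (m0 : 0 ≤ m)
    (k0 : 0 ≤ κ) (dr : Drop B P Γ D τ a m κ) (hq : 0 < q)
    (c2 : C < q * (a * β / 4 - (a * m + κ + D * s / τ))) {I : Inst Γ} {d : ℕ} (h : WF I d d)
    (hI : ∀ F, (cnt satG I.2.2 F : ℝ) ≤ s * I.2.2.length) {f : ℕ → Bool}
    (hf : β * (demL Γ I.2.1.v).length ≤ ct (demL Γ I.2.1.v) f) :
    C * ((1 : ℕ) * (Fintype.card (Γ → W) * (prs I.2.2).length : ℕ)) <
      ct (blow _ (supE P q) (prs I.2.2)) f := by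
  have hq' : (0 : ℝ) < q := Nat.cast_pos.2 hq
  have hK : (0 : ℝ) < Fintype.card (Γ → W) := Nat.cast_pos.2 Fintype.card_pos
  have h2 := sound_cut hτ a0 a1 m0 k0 dr h hI (fun v x => if f (num v x) = true then 1 else 0)
    fun _ _ => by split_ifs <;> norm_num
  rw [sum_right h fun v => (𝔼 x : Γ → Bool, if f (num v x) = true then (1 : ℝ) else 0) *
    (1 - 𝔼 x : Γ → Bool, if f (num v x) = true then (1 : ℝ) else 0)] at h2
  have h3 := sum_right h fun _ => 1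
  rw [sum_map_const, sum_const, card_range, nsmul_eq_mul, one_mul, mul_one] at h3
  have h4 := sum_le_sum fun v (_ : v ∈ range I.2.1.v) => sep_le fun x : Γ → Bool => f (num v x)
  rw [ct_cast, demL, sum_blow', length_blow, List.length_range, Nat.cast_mul, mul_left_comm,
    mul_le_mul_iff_right₀ (Nat.cast_pos.2 Fintype.card_pos), ← List.sum_toFinset _ List.nodup_range,
    List.toFinset_range] at hf
  rw [← mul_sum] at h4
  have h5 := mul_le_mul_of_nonneg_left (hf.trans h4) (mul_nonneg a0 (Nat.cast_nonneg d))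
  have h6 : ∀ x y : Bool, (if x = true then (1 : ℝ) else 0) * (1 - if y = true then 1 else 0) +
      (1 - if x = true then 1 else 0) * (if y = true then 1 else 0) = if x = y then 0 else 1 :=
    fun x y => by cases x <;> cases y <;> simp
  simp only [h6] at h2
  have h7 := length_prs h
  have h8 : (0 : ℝ) < (prs I.2.2).length := Nat.cast_pos.2 (List.length_pos_iff.2 (prs_ne h))
  have h9 := mul_lt_mul_of_pos_right c2 h8
  have hd : (0 : ℝ) ≤ d := Nat.cast_nonneg d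
  rw [ct_supE P hq]
  push_cast
  rw [one_mul, mul_left_comm, mul_left_comm (q : ℝ)]
  refine mul_lt_mul_of_pos_left (h9.trans_le ?_) hK
  rw [mul_assoc]
  refine mul_le_mul_of_nonneg_left (le_trans ?_ h2) hq'.le
  rw [h7, h3]
  generalize ∑ v ∈ range I.2.1.v, (𝔼 x : Γ → Bool, if f (num v x) = true then (1 : ℝ) else 0) *
    (1 - 𝔼 x : Γ → Bool, if f (num v x) = true then (1 : ℝ) else 0) = X at h5 ⊢
  generalize a * m + κ + D * s / τ = Y
  nlinarith [mul_le_mul_of_nonneg_left h5 hd]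

omit [Group Γ] in
theorem PT_demL : PT ∅ fun n : Un => demL Γ n.v :=
  (PT_blow fun _ => ((PT.id.mul (PT.const _)).add (PT.const _)).pair
    ((PT.id.mul (PT.const _)).add (PT.const _))).comp
    (PT.range PT.id.unVal (PBd.unVal (A := ∅) PT.id))

omit [Nonempty W] in
theorem PT_supE [Enc Γ] [EncInj Γ] (P : Cor Bool W ρ) (q : ℕ) (t : (Γ → W) × Fin q) :
    PT ∅ fun p : (ℕ × ℕ × Γ) × ℕ × ℕ × Γ => supE P q p t :=
  (PT_num PT.fst'.snd.fst PT.fst'.snd.snd fun γ => sh γ (P.X ∘ t.1)).pair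
    (PT_num PT.snd'.snd.fst PT.snd'.snd.snd fun γ => sh γ (P.Y ∘ t.1))

theorem red_sc [Enc Γ] [EncInj Γ] {B : Bas Bool} {P : Cor Bool W ρ} (h0 : 0 ≤ ρ)
    {D q : ℕ} {τ a m κ η s C β : ℝ} (hτ : 0 < τ) (a0 : 0 ≤ a) (a1 : a ≤ 1) (m0 : 0 ≤ m)
    (k0 : 0 ≤ κ) (dr : Drop B P Γ D τ a m κ) (hq : 0 < q)
    (c1 : q * (1 - (1 - 2 * η) * ((1 + ρ) / 2)) ≤ 1)
    (c2 : C < q * (a * β / 4 - (a * m + κ + D * s / τ))) :
    Red (RegP Γ (1 - η) s) (SC InRange 1 C β) := by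
  have hn : ∀ (I : Inst Γ) (d : ℕ), WF I d d → 0 < I.2.1.v := fun I d h => by
    obtain ⟨e, he⟩ := List.exists_mem_of_ne_nil _ h.ne
    exact Nat.zero_lt_of_lt (h.lt e he).2
  have ht : ∀ (I : Inst Γ) (d : ℕ), WF I d d → 0 < Fintype.card (Γ → W) * (prs I.2.2).length :=
    fun I d h => Nat.mul_pos Fintype.card_pos (List.length_pos_iff.2 (prs_ne h))
  have hR : ∀ (I : Inst Γ) (d : ℕ), WF I d d → InRange (I.2.1.v * Fintype.card (Γ → Bool))
      (blow _ (supE P q) (prs I.2.2)) := fun I d h e he => by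
    obtain ⟨p, hp, t, rfl⟩ := mem_blow he
    exact ⟨num_lt (h.lt _ (mem_prs hp).1).2 _, num_lt (h.lt _ (mem_prs hp).2.1).2 _⟩
  have hp : PT ∅ fun I : Inst Γ => prs I.2.2 := PT_prs.comp PT.snd'.snd
  refine ⟨fun I => (Fintype.card (Γ → W) * (prs I.2.2).length,
      ⟨I.2.1.v * Fintype.card (Γ → Bool)⟩, blow _ (supE P q) (prs I.2.2), demL Γ I.2.1.v),
    ((PT.const _).mul hp.length).pair ((PT.mkUn (PT.snd'.fst.unVal.mul (PT.const _))
      ((PBd.unVal (A := ∅) PT.snd'.fst).mul (PBd.const _))).pair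
      (((PT_blow (PT_supE P q)).comp hp).pair (PT_demL.comp PT.snd'.fst))),
    fun I ⟨⟨d, h⟩, F, hF⟩ => ⟨⟨wd_demL (ht I d h) (hn I d h) _, hR I d h⟩,
      fun i => pt Γ Bool i (F.2 (i / Fintype.card (Γ → Bool))), fun e he => ?_,
      sc_yes P h0 hq c1 h hF⟩,
    fun I ⟨⟨d, h⟩, hI⟩ => ⟨⟨wd_demL (ht I d h) (hn I d h) _, hR I d h⟩, fun f hf =>
      sc_no hτ a0 a1 m0 k0 dr hq c2 h hI hf⟩⟩
  obtain ⟨v, -, x, rfl⟩ := mem_blow he
  simp only [pt_num, num_div]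
  simp

end Red

theorem hard_sc (C : ℝ) {β : ℝ} (hβ : 0 < β) : Hard (SC InRange 1 C β) := by
  obtain ⟨c, c0, c1, hc⟩ := exists_dropAll
  obtain ⟨r, hr⟩ := exists_nat_gt (max (max 2 (8 / β)) (8 * (|C| + 1) / (c * β)))
  have r2 : (2 : ℝ) < r := ((le_max_left _ _).trans (le_max_left _ _)).trans_lt hr
  have r3 : 8 / β < r := ((le_max_right _ _).trans (le_max_left _ _)).trans_lt hr
  have r4 : 8 * (|C| + 1) / (c * β) < r := (le_max_right _ _).trans_lt hr
  rw [div_lt_iff₀ hβ] at r3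
  rw [div_lt_iff₀ (mul_pos c0 hβ)] at r4
  obtain ⟨ε, hε⟩ : ∃ ε : ℝ, ε = 1 / r ^ 2 := ⟨_, rfl⟩
  have e0 : 0 < ε := by rw [hε]; positivity
  have e1 : r ^ 2 * ε = 1 := by rw [hε]; field_simp
  have e2 : √ε = 1 / r := by
    rw [hε, ← one_div_pow, Real.sqrt_sq (by positivity)]
  have e3 : ε < 1 := by nlinarith
  have e4 : ε ≤ β / 8 := by
    have : r * ε * 8 ≤ β := by nlinarith
    nlinarith
  obtain ⟨B⟩ := exists_bas Bool
  obtain ⟨W, _, _, ρ, a0, a1, a2, ⟨P⟩⟩ := exists_cor Bool (ρ := 1 - ε) (κ := ε / 5) (by linarith)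
    (by linarith) (by positivity)
  obtain ⟨D, τ, hτ, h⟩ := hc Bool B W ρ P ε (β / 8) (ε / 5) e0 e3 e4 (by positivity) a0 a1
  obtain ⟨Γ, _, _, _, _, _, hΓ⟩ := exists_regP (η := ε / 5) (s := ε / 5 * τ / (D + 1))
    (by positivity) (by positivity)
  have s1 : √ε ≤ 1 := Real.sqrt_le_one.2 e3.le
  refine hΓ.red (red_sc (q := r ^ 2) a0 hτ (by positivity) (mul_le_one₀ c1 (by positivity) s1)
    (by positivity) (by positivity) (h Γ) (by
      have : 0 < r := by exact_mod_cast (by linarith : (0 : ℝ) < r)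
      positivity) ?_ ?_)
  · push_cast
    rw [← e1]
    refine mul_le_mul_of_nonneg_left ?_ (by positivity)
    nlinarith
  · have b1 : D * (ε / 5 * τ / (D + 1)) / τ ≤ ε / 5 := by
      rw [div_le_iff₀ hτ, ← mul_div_assoc, div_le_iff₀ (by positivity)]
      nlinarith [mul_pos e0 hτ]
    have b2 : (r : ℝ) ^ 2 * (c * √ε * β / 4 - c * √ε * (β / 8)) = r * (c * β) / 8 := by
      rw [e2]
      field_simp
      ring
    have b3 := mul_le_mul_of_nonneg_left b1 (sq_nonneg (r : ℝ))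
    push_cast
    nlinarith [le_abs_self C]


end Vale.Agent.N318U
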