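import Vale.Agent.N318U.Stab

/-!
The long code reduction from unique games to cuts which separate demand pairs.
-/

namespace Vale.Agent.N318U

open Finset Vale.Agent.Lib.PCP Vale.Agent.Lib.PolyTime Vale.Agent.P325 Vale.Agent.N325
  Vale.Agent.N325M
open scoped BigOperators

section Sound

variable {Γ : Type} [Group Γ] [DecidableEq Γ] [Fintype Γ] {I : Inst Γ} {d d' : ℕ}
  {Ω W : Type} [Fintype Ω] [DecidableEq Ω] [Fintype W] {ρ : ℝ}

theorem jensen {Y : Type} [Fintype Y] [Nonempty Y] (μ : Y → ℝ) :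
    𝔼 y, μ y * (1 - μ y) ≤ (𝔼 y, μ y) * (1 - 𝔼 y, μ y) := by
  have h2 := expect_mul_sq_le_sq_mul_sq univ (fun _ : Y => (1 : ℝ)) μ
  simp only [one_mul, one_pow, Fintype.expect_const] at h2
  have h3 : ∀ y, μ y * (1 - μ y) = μ y - μ y ^ 2 := fun y => by ring
  simp only [h3, expect_sub_distrib]
  nlinarith

omit [DecidableEq Ω] in
theorem expect_sh (f : (Γ → Ω) → ℝ) (γ : Γ) : 𝔼 x, f (sh γ x) = 𝔼 x, f x :=
  Fintype.expect_equiv ((Equiv.mulLeft γ⁻¹).symm.arrowCongr (Equiv.refl Ω))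
    (fun x => f (sh γ x)) f fun _ => rfl

theorem vertex [Nonempty W] {B : Bas Ω} {P : Cor Ω W ρ} {D : ℕ} {τ a m κ t : ℝ}
    (hτ : 0 < τ) (a0 : 0 ≤ a) (a1 : a ≤ 1) (m0 : 0 ≤ m) (k0 : 0 ≤ κ) (dr : Drop B P Γ D τ a m κ)
    {Y : Type} [Fintype Y] [Nonempty Y] (ψ : Y → (Γ → Ω) → ℝ)
    (hψ : ∀ y x, ψ y x ∈ Set.Icc (0 : ℝ) 1)
    (ht : ∀ j, B.inf D (B.hat fun x => 𝔼 y, ψ y x) j ≤ t) :
    a * (𝔼 y, (𝔼 x, ψ y x) * (1 - 𝔼 x, ψ y x)) - (a * m + κ) - t / τ ≤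
      𝔼 y, 𝔼 y', 𝔼 w : Γ → W, (ψ y (P.X ∘ w) * (1 - ψ y' (P.Y ∘ w)) +
        (1 - ψ y (P.X ∘ w)) * ψ y' (P.Y ∘ w)) := by
  have := B.nonempty
  obtain ⟨g, hg⟩ : ∃ g : (Γ → Ω) → ℝ, g = fun x => 𝔼 y, ψ y x := ⟨_, rfl⟩
  rw [← hg] at ht
  have g1 : ∀ x, g x ∈ Set.Icc (0 : ℝ) 1 := fun x => by
    rw [hg]
    exact ⟨expect_nonneg fun _ _ => (hψ _ _).1, expect_le univ_nonempty fun _ _ => (hψ _ _).2⟩
  have g2 : 𝔼 x, g x = 𝔼 y, 𝔼 x, ψ y x := by rw [hg, expect_comm]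
  have g4 : a * ((𝔼 x, g x) * (1 - 𝔼 x, g x) - m) - κ - t / τ ≤ cross P g := by
    rcases le_total t τ with e | e
    · linarith [dr _ g1 fun i => (ht i).trans e,
        div_nonneg ((inf_nonneg B D (B.hat g) 1).trans (ht 1)) hτ.le]
    · have b1 : a * ((𝔼 x, g x) * (1 - 𝔼 x, g x) - m) ≤ a * 1 :=
        mul_le_mul_of_nonneg_left (by nlinarith [sq_nonneg (𝔼 x, g x - 1 / 2)]) a0
      linarith [(one_le_div hτ).2 e, cross_nonneg P g1]
  have g5 := mul_le_mul_of_nonneg_left (jensen fun y => 𝔼 x, ψ y x) a0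
  rw [← g2] at g5
  have g6 : cross P g = 𝔼 y, 𝔼 y', 𝔼 w : Γ → W, (ψ y (P.X ∘ w) * (1 - ψ y' (P.Y ∘ w)) +
      (1 - ψ y (P.X ∘ w)) * ψ y' (P.Y ∘ w)) := by
    have b1 : ∀ x, 1 - g x = 𝔼 y, (1 - ψ y x) := fun x => by
      rw [expect_sub_distrib, Fintype.expect_const, hg]
    rw [cross]
    simp only [b1]
    simp only [hg, expect_mul_expect, ← expect_add_distrib]
    rw [expect_comm (univ : Finset (Γ → W))]
    exact expect_congr rfl fun y _ => expect_comm _ _ _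
  rw [← g6]
  linarith

theorem sound_cut [Nonempty W] {B : Bas Ω} {P : Cor Ω W ρ} {D : ℕ} {τ a m κ s : ℝ}
    (hτ : 0 < τ) (a0 : 0 ≤ a) (a1 : a ≤ 1) (m0 : 0 ≤ m) (k0 : 0 ≤ κ) (dr : Drop B P Γ D τ a m κ)
    (h : WF I d d') (hI : ∀ F, (cnt satG I.2.2 F : ℝ) ≤ s * I.2.2.length)
    (φ : ℕ → (Γ → Ω) → ℝ) (hφ : ∀ v x, φ v x ∈ Set.Icc (0 : ℝ) 1) :
    d * (a * (I.2.2.map fun e => (𝔼 x, φ e.2.1 x) * (1 - 𝔼 x, φ e.2.1 x)).sum -
      (a * m + κ + D * s / τ) * I.2.2.length) ≤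
    ((prs I.2.2).map fun p => 𝔼 w : Γ → W,
      (φ p.1.2.1 (sh p.1.2.2 (P.X ∘ w)) * (1 - φ p.2.2.1 (sh p.2.2.2 (P.Y ∘ w))) +
        (1 - φ p.1.2.1 (sh p.1.2.2 (P.X ∘ w))) * φ p.2.2.1 (sh p.2.2.2 (P.Y ∘ w)))).sum := by
  have := B.nonempty
  obtain ⟨g, hg⟩ : ∃ g : ℕ → (Γ → Ω) → ℝ, ∀ u, g u = fun x => 𝔼 y : Fin (star I.2.2 u).length,
    φ (star I.2.2 u)[y].2.1 (sh (star I.2.2 u)[y].2.2 x) := ⟨_, fun _ => rfl⟩
  have hmax : ∀ u, ∃ i, ∀ j, B.inf D (B.hat (g u)) j ≤ B.inf D (B.hat (g u)) i := fun u => by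
    obtain ⟨i, -, hi⟩ := exists_max_image univ (B.inf D (B.hat (g u))) univ_nonempty
    exact ⟨i, fun j => hi j (mem_univ j)⟩
  choose F hF using hmax
  have h1 : (I.2.2.map fun e => B.inf D (B.hat (φ e.2.1)) (e.2.2 * F e.1)).sum ≤
      D * (s * I.2.2.length) := by
    have h2 := frac_le (fun p : Fin I.2.2.length => I.2.2[p].2.1)
      (fun p c => if c = I.2.2[p].2.2 * F I.2.2[p].1 then (1 : ℝ) else 0)
      (fun _ _ => by split_ifs <;> norm_num) (S := s * I.2.2.length) (fun F' => by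
        have h3 := hI (F, F')
        rw [cnt_eq_fin] at h3
        exact le_trans (le_of_eq (sum_congr rfl fun p _ =>
          if_congr (satG_iff (c := I.2.2[p]) (F := (F, F'))).symm rfl rfl)) h3)
      (fun v c => B.inf D (B.hat (φ v)) c) (Nat.cast_nonneg D) (fun _ _ => inf_nonneg B _ _ _)
      fun v => sum_inf_le B D (hφ v)
    rw [sum_map_eq_sum_fin]
    simpa only [mul_ite, mul_one, mul_zero, sum_ite_eq', mem_univ, if_true] using h2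
  have h2 : ∀ u ∈ range I.1.v, a * (𝔼 y : Fin (star I.2.2 u).length,
      (𝔼 x, φ (star I.2.2 u)[y].2.1 x) * (1 - 𝔼 x, φ (star I.2.2 u)[y].2.1 x)) - (a * m + κ) -
      (𝔼 y : Fin (star I.2.2 u).length, B.inf D (B.hat (φ (star I.2.2 u)[y].2.1))
        ((star I.2.2 u)[y].2.2 * F (star I.2.2 u)[y].1)) / τ ≤
      𝔼 y : Fin (star I.2.2 u).length, 𝔼 y' : Fin (star I.2.2 u).length, 𝔼 w : Γ → W,
        (φ (star I.2.2 u)[y].2.1 (sh (star I.2.2 u)[y].2.2 (P.X ∘ w)) *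
          (1 - φ (star I.2.2 u)[y'].2.1 (sh (star I.2.2 u)[y'].2.2 (P.Y ∘ w))) +
        (1 - φ (star I.2.2 u)[y].2.1 (sh (star I.2.2 u)[y].2.2 (P.X ∘ w))) *
          φ (star I.2.2 u)[y'].2.1 (sh (star I.2.2 u)[y'].2.2 (P.Y ∘ w))) := by
    intro u hu
    have := star_ne h hu
    have g3 : B.inf D (B.hat (g u)) (F u) ≤ 𝔼 y : Fin (star I.2.2 u).length,
        B.inf D (B.hat (φ (star I.2.2 u)[y].2.1))
          ((star I.2.2 u)[y].2.2 * F (star I.2.2 u)[y].1) := by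
      rw [hg]
      refine (inf_avg B D _ _).trans (le_of_eq (expect_congr rfl fun y _ => ?_))
      rw [star_fst]
      refine (inf_comp B D (Equiv.mulLeft _) _ _).trans ?_
      simp
    have g4 := vertex hτ a0 a1 m0 k0 dr (fun (y : Fin (star I.2.2 u).length) x =>
      φ (star I.2.2 u)[y].2.1 (sh (star I.2.2 u)[y].2.2 x)) (fun _ _ => hφ _ _)
      fun j => le_trans (by rw [← hg]; exact hF u j) g3
    simpa only [expect_sh] using g4
  have h3 := sum_edges h fun _ => 1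
  rw [sum_congr rfl fun u hu => by
    have := star_ne h hu
    exact Fintype.expect_const (1 : ℝ), sum_map_const, one_mul, sum_const, card_range, nsmul_eq_mul,
    mul_one] at h3
  rw [sum_edges h] at h1
  have h4 := sum_le_sum h2
  rw [sum_sub_distrib, sum_sub_distrib, ← sum_div, ← mul_sum, sum_const, card_range,
    nsmul_eq_mul] at h4
  have hd : (0 : ℝ) ≤ d := Nat.cast_nonneg d
  rw [sum_prs h, sum_edges h]
  refine mul_le_mul_of_nonneg_left (le_trans ?_ (mul_le_mul_of_nonneg_left h4 hd)) hd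
  have h5 := div_le_div_of_nonneg_right h1 hτ.le
  rw [h3] at h5 ⊢
  refine le_trans (le_of_eq ?_) ((sub_le_sub_left h5 (d * (a * ∑ u ∈ range I.1.v,
    𝔼 y : Fin (star I.2.2 u).length, (𝔼 x, φ (star I.2.2 u)[y].2.1 x) *
      (1 - 𝔼 x, φ (star I.2.2 u)[y].2.1 x)) - d * (I.1.v * (a * m + κ)))).trans (le_of_eq ?_))
  all_goals ring

end Sound

end Vale.Agent.N318U
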