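import Vale.Agent.N325M.Red
import Vale.Agent.N325M.Gauss

/-!
Functions with small influences are cut by the noise, whatever their mean is.
-/

namespace Vale.Agent.N318U

open Finset Vale.Agent.P325 Vale.Agent.N325M Vale.Agent.N325M.Bas Real
open scoped BigOperators

variable {Ω : Type} [Fintype Ω] [DecidableEq Ω] (B : Bas Ω)
variable {W : Type} [Fintype W] [Nonempty W] {ρ' : ℝ} (P : Cor Ω W ρ')

/-- Majority is stablest, uniformly in the mean. -/
theorem stablest_unif {J : ℝ → ℝ → ℝ} {ρ : ℝ} (H : Bell J ρ) (h0 : 0 ≤ ρ') (hρ : ρ' ≤ ρ)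
    (h1 : ρ' < 1) {m : ℝ} (hm0 : 0 < m) {ε : ℝ} (hε : 0 < ε) :
    ∃ (D : ℕ) (τ : ℝ), 0 < τ ∧ ∀ (ι : Type) [Fintype ι] [DecidableEq ι] (f : (ι → Ω) → ℝ) (μ : ℝ),
      m ≤ μ → m ≤ 1 - μ →
      (∀ x, f x ∈ Set.Icc (0 : ℝ) 1) → 𝔼 x, f x = μ → (∀ i, B.inf D (B.hat f) i ≤ τ) →
      𝔼 w : ι → W, f (P.X ∘ w) * f (P.Y ∘ w) ≤ J μ μ + ε := by
  have := B.nonempty
  obtain ⟨γ, hγ0, hγ1, hγ⟩ : ∃ γ : ℝ, 0 < γ ∧ γ ≤ 1 ∧ 2 * γ ≤ ε / 4 * (1 - ρ') :=
    ⟨min 1 (ε / 8 * (1 - ρ')), lt_min one_pos (mul_pos (by positivity) (by linarith)),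
      min_le_left _ _, by linarith [min_le_right 1 (ε / 8 * (1 - ρ'))]⟩
  obtain ⟨C, hC, hS⟩ := H.step W (mul_pos hγ0 hm0) (η := ε / 8) (by positivity)
  obtain ⟨D, hD⟩ := exists_pow_lt_of_lt_one (x := ε / (32 * (C + 1))) (y := 1 - γ)
    (by positivity) (by linarith)
  set K : ℝ := 16 * (4 * Fintype.card Ω : ℝ) ^ (2 * D) with hK
  have hK0 : 0 ≤ K := by positivity
  refine ⟨D, ε / (8 * (C * K + 1)), by positivity, fun ι _ _ f μ m1 m2 hf hfμ hinf => ?_⟩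
  set τ := ε / (8 * (C * K + 1)) with hτ
  set σ := 1 - γ with hσ
  have hσ0 : 0 ≤ σ := by linarith
  have hσ1 : σ ≤ 1 := by linarith
  set c := B.hat f with hc
  have hcz : c B.z = μ := by rw [hc, B.hat_z, hfμ]
  have hc1 : ∑ α, c α ^ 2 ≤ 1 := by
    rw [hc, B.sum_hat_sq]
    exact expect_le univ_nonempty fun x _ => pow_le_one₀ (hf x).1 (hf x).2
  set d : (ι → Ω) → ℝ := fun α => (if α = B.z then γ * μ else 0) + σ * (σ ^ B.deg α * c α)
    with hd
  have hdz : d B.z = μ := by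
    simp only [hd, if_true, deg_z, hcz, hσ]
    ring
  have hdn : ∀ α, α ≠ B.z → d α = σ ^ (B.deg α + 1) * c α := fun α h => by
    simp only [hd, if_neg h]
    ring
  have hdb : ∀ x, B.syn d x ∈ Set.Icc (γ * m) (1 - γ * m) := fun x => by
    have h2 := B.smooth_mem hσ0 hσ1 (c := c) (fun x => by rw [hc, syn_hat]; exact hf x) univ x
    rw [hd, syn_add, syn_const, syn_smul]
    have h3 := mul_le_mul_of_nonneg_left m1 hγ0.le
    have h4 := mul_le_mul_of_nonneg_left m2 hγ0.le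
    change B.syn (fun α => σ ^ B.deg α * c α) x ∈ _ at h2
    exact ⟨by nlinarith [mul_nonneg hσ0 h2.1], by nlinarith [mul_le_mul_of_nonneg_left h2.2 hσ0]⟩
  have hdc : ∀ α, d α ^ 2 ≤ c α ^ 2 := fun α => by
    by_cases h : α = B.z
    · rw [h, hdz, hcz]
    · rw [hdn α h, mul_pow]
      exact mul_le_of_le_one_left (sq_nonneg _) (pow_le_one₀ (by positivity) (pow_le_one₀ hσ0 hσ1))
  have h2 := B.chain P hS (pow_le_pow_left₀ h0 hρ 2) (mul_pos hγ0 hm0).le hC D τ univ d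
    (fun _ i hi _ => absurd (mem_univ i) hi) hdb fun i => le_trans (sum_le_sum fun α _ => by
      split_ifs
      · exact hdc α
      · exact le_rfl) (hinf i)
  rw [hdz] at h2
  have hI : ∀ x, B.syn d x ∈ Set.Ioo (0 : ℝ) 1 := fun x =>
    ⟨by linarith [(hdb x).1, mul_pos hγ0 hm0], by linarith [(hdb x).2, mul_pos hγ0 hm0]⟩
  have h3 := (expect_le_expect fun (w : ι → W) _ =>
    H.ge _ (hI (P.X ∘ w)) _ (hI (P.Y ∘ w))).trans h2
  rw [B.cor_syn] at h3
  have h4 := B.cor_syn P c c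
  simp only [hc, syn_hat] at h4
  rw [h4, ← hc]
  have h5 : ∑ α, ρ' ^ B.deg α * (c α * c α) ≤
      ∑ α, ρ' ^ B.deg α * (d α * d α) + ε / 4 * ∑ α, c α ^ 2 := by
    rw [mul_sum, ← sum_add_distrib]
    refine sum_le_sum fun α _ => ?_
    by_cases h : α = B.z
    · rw [h, hdz, hcz]
      have : 0 ≤ ε / 4 * μ ^ 2 := by positivity
      linarith
    · rw [hdn α h]
      exact loss_le h0 h1 hγ1 hγ (by positivity) _ _
  have h6 : ∑ α, (if α = B.z then 0 else 2 * (ε / 8 + C * (K * τ +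
      if B.deg α ≤ D then 0 else 4))) * d α ^ 2 ≤ 3 * ε / 4 * ∑ α, c α ^ 2 := by
    rw [mul_sum]
    refine sum_le_sum fun α _ => ?_
    have b1 : C * (K * τ) ≤ ε / 8 := by
      rw [hτ, ← mul_assoc, ← mul_div_assoc, div_le_iff₀ (by positivity)]
      nlinarith [mul_nonneg hC hK0]
    by_cases h : α = B.z
    · rw [if_pos h, zero_mul]
      positivity
    · rw [if_neg h]
      refine err_le hε.le b1 (hdc α) (sq_nonneg _) ?_
      split_ifs with hα
      · rw [zero_mul, mul_zero]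
        positivity
      · have b2 : d α ^ 2 ≤ σ ^ D * c α ^ 2 := by
          rw [hdn α h, mul_pow, ← pow_mul]
          exact mul_le_mul_of_nonneg_right (pow_le_pow_of_le_one hσ0 hσ1 (by omega)) (sq_nonneg _)
        have b3 : C * σ ^ D ≤ ε / 32 := by
          rw [lt_div_iff₀ (by positivity)] at hD
          have := pow_nonneg hσ0 D
          linarith
        have b4 := mul_le_mul_of_nonneg_left b2 hC
        have b5 := mul_le_mul_of_nonneg_right b3 (sq_nonneg (c α))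
        linarith
  have h7 := mul_le_mul_of_nonneg_left hc1 hε.le
  linarith


theorem inf_one_sub {ι : Type} [Fintype ι] [DecidableEq ι] (D : ℕ) (f : (ι → Ω) → ℝ) (i : ι) :
    B.inf D (B.hat fun x => 1 - f x) i = B.inf D (B.hat f) i := by
  refine sum_congr rfl fun α _ => ?_
  split_ifs with h
  · have h1 : α ≠ B.z := fun e => h.1 (by rw [e]; rfl)
    have h2 := B.orthE α B.z
    simp only [E_z, mul_one, if_neg h1] at h2
    have h3 : B.hat (fun x => 1 - f x) α = -B.hat f α := by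
      simp only [Bas.hat, sub_mul, one_mul, expect_sub_distrib, h2, zero_sub]
    rw [h3, neg_sq]
  · rfl

/-- The probability that the noise crosses the fractional cut `f`. -/
noncomputable def cross {ι : Type} [Fintype ι] [DecidableEq ι] (f : (ι → Ω) → ℝ) : ℝ :=
  𝔼 w : ι → W, (f (P.X ∘ w) * (1 - f (P.Y ∘ w)) + (1 - f (P.X ∘ w)) * f (P.Y ∘ w))

omit [DecidableEq Ω] [Nonempty W] in
theorem cross_nonneg {ι : Type} [Fintype ι] [DecidableEq ι] {f : (ι → Ω) → ℝ}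
    (hf : ∀ x, f x ∈ Set.Icc (0 : ℝ) 1) : 0 ≤ cross P f :=
  expect_nonneg fun _ _ => add_nonneg (mul_nonneg (hf _).1 (sub_nonneg.2 (hf _).2))
    (mul_nonneg (sub_nonneg.2 (hf _).2) (hf _).1)

omit [DecidableEq Ω] [Nonempty W] in
theorem cross_one_sub {ι : Type} [Fintype ι] [DecidableEq ι] (f : (ι → Ω) → ℝ) :
    cross P (fun x => 1 - f x) = cross P f :=
  expect_congr rfl fun _ _ => by ring

omit [Nonempty W] in
include B in
theorem cross_eq {ι : Type} [Fintype ι] [DecidableEq ι] (f : (ι → Ω) → ℝ) :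
    cross P f = 2 * 𝔼 x, f x - 2 * 𝔼 w : ι → W, f (P.X ∘ w) * f (P.Y ∘ w) := by
  have h1 := B.marg_X P f
  have h2 := B.marg_Y P f
  have h3 : ∀ w : ι → W, f (P.X ∘ w) * (1 - f (P.Y ∘ w)) + (1 - f (P.X ∘ w)) * f (P.Y ∘ w) =
      f (P.X ∘ w) + f (P.Y ∘ w) - 2 * (f (P.X ∘ w) * f (P.Y ∘ w)) := fun w => by ring
  simp only [cross, h3, expect_sub_distrib, expect_add_distrib, ← mul_expect, h1, h2]
  ring

/-- Functions with small influences are crossed with probability of order `a μ (1 - μ)`. -/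
def Drop (Γ : Type) [Fintype Γ] [DecidableEq Γ] (D : ℕ) (τ a m κ : ℝ) : Prop :=
  ∀ f : (Γ → Ω) → ℝ, (∀ x, f x ∈ Set.Icc (0 : ℝ) 1) → (∀ i, B.inf D (B.hat f) i ≤ τ) →
    a * ((𝔼 x, f x) * (1 - 𝔼 x, f x) - m) - κ ≤ cross P f

end Vale.Agent.N318U

namespace Vale.Agent.N318U

open Finset Vale.Agent.P325 Vale.Agent.N325M Vale.Agent.N325M.Bas Real
open scoped BigOperators

theorem exists_dropAll : ∃ c : ℝ, 0 < c ∧ c ≤ 1 ∧ ∀ (Ω : Type) [Fintype Ω] [DecidableEq Ω]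
    (B : Bas Ω) (W : Type) [Fintype W] [Nonempty W] (ρ' : ℝ) (P : Cor Ω W ρ') (ε m κ : ℝ),
    0 < ε → ε < 1 → ε ≤ m → 0 < κ → 0 ≤ ρ' → ρ' ≤ 1 - ε → ∃ (D : ℕ) (τ : ℝ), 0 < τ ∧
      ∀ (Γ : Type) [Fintype Γ] [DecidableEq Γ], Drop B P Γ D τ (c * √ε) m κ := by
  obtain ⟨c, c0, c1, hc⟩ := exists_drop
  refine ⟨c, c0, c1, fun Ω _ _ B W _ _ ρ' P ε m κ e0 e1 em k0 r0 r1 => ?_⟩
  have := B.nonempty
  have s1 : 0 < √(1 - (1 - ε) ^ 2) := sqrt_pos.2 (by nlinarith)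
  have s2 : √(1 - (1 - ε) ^ 2) ^ 2 = 1 - (1 - ε) ^ 2 := sq_sqrt (by nlinarith)
  obtain ⟨D, τ, hτ, h⟩ := stablest_unif B P (bellGauss (ρ := 1 - ε) (by linarith) s1 s2) r0 r1
    (by linarith) (e0.trans_le em) (half_pos k0)
  refine ⟨D, τ, hτ, fun Γ _ _ => ?_⟩
  have a0 : 0 ≤ c * √ε := by positivity
  have key : ∀ f : (Γ → Ω) → ℝ, (∀ x, f x ∈ Set.Icc (0 : ℝ) 1) → (∀ i, B.inf D (B.hat f) i ≤ τ) →
      𝔼 x, f x ≤ 1 / 2 → c * √ε * ((𝔼 x, f x) * (1 - 𝔼 x, f x) - m) - κ ≤ cross P f := by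
    intro f hf hi h2
    set μ := 𝔼 x, f x with hμ
    have μ0 : 0 ≤ μ := expect_nonneg fun x _ => (hf x).1
    rcases le_total μ m with h3 | h3
    · have h4 : μ * (1 - μ) - m ≤ 0 := by nlinarith
      linarith [mul_nonpos_of_nonneg_of_nonpos a0 h4, cross_nonneg P hf]
    have μ1 : 0 < μ := (e0.trans_le em).trans_le h3
    have h4 := h Γ f μ h3 (by linarith) hf rfl hi
    have ht := Phi_quant (x := μ) ⟨μ1, by linarith⟩
    have l1 : 1 / 4 ≤ -log μ := by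
      have := log_le_sub_one_of_pos μ1
      linarith
    have l2 : ε * -log μ ≤ 1 := by
      have b1 := log_le_sub_one_of_pos (inv_pos.2 μ1)
      rw [log_inv] at b1
      have b2 : ε * μ⁻¹ ≤ 1 := by
        rw [← div_eq_mul_inv, div_le_one μ1]
        linarith
      nlinarith
    have h5 := hc ε (-log μ) (quant μ) e0 e1 (by linarith) l2 (Phi_mono.le_iff_le.1 (by
      rw [ht, Phi_zero]
      exact h2)) (by rw [ht, neg_neg, exp_log μ1])
    rw [ht] at h5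
    have h6 : √ε ≤ 2 * √(ε * -log μ) := by
      refine sqrt_le_iff.2 ⟨by positivity, ?_⟩
      rw [mul_pow, sq_sqrt (by positivity)]
      nlinarith
    have h7 := mul_le_mul_of_nonneg_left h6 (mul_nonneg c0.le μ0)
    have h8 : c * √ε * (μ * (1 - μ) - m) ≤ c * √ε * μ :=
      mul_le_mul_of_nonneg_left (by nlinarith) a0
    rw [cross_eq B P, ← hμ]
    nlinarith
  intro f hf hi
  rcases le_total (𝔼 x, f x) (1 / 2) with h2 | h2
  · exact key f hf hi h2
  · have h3 : 𝔼 x, (1 - f x) = 1 - 𝔼 x, f x := by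
      rw [expect_sub_distrib, Fintype.expect_const]
    have h4 := key (fun x => 1 - f x) (fun x => ⟨sub_nonneg.2 (hf x).2, by linarith [(hf x).1]⟩)
      (fun i => by rw [inf_one_sub]; exact hi i) (by rw [h3]; linarith)
    rw [cross_one_sub, h3] at h4
    refine le_trans (le_of_eq ?_) h4
    ring

end Vale.Agent.N318U
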