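import Vale.Agent.N318U.Red

/-!
Subdivision of the supply edges gives a simple graph.
-/

namespace Vale.Agent.N318U

open Finset Vale.Agent.Lib.PCP Vale.Agent.Lib.PolyTime Vale.Agent.P325 Vale.Agent.N325
  Vale.Agent.N325M
open scoped BigOperators

/-- The arcs of the path of length two through `z`. -/
def arcs (e : ℕ × ℕ) (z : ℕ) : List (ℕ × ℕ) :=
  if e.1 = e.2 then [] else [(e.1, z), (z, e.1), (e.2, z), (z, e.2)]

/-- The subdivided graph. -/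
def sub (N : ℕ) (l : List (ℕ × ℕ)) : List (ℕ × ℕ) :=
  (List.range l.length).flatMap fun k => arcs (l.getD k (0, 0)) (N + k)

theorem mem_arcs {e a : ℕ × ℕ} {z : ℕ} : a ∈ arcs e z ↔ e.1 ≠ e.2 ∧
    (a = (e.1, z) ∨ a = (z, e.1) ∨ a = (e.2, z) ∨ a = (z, e.2)) := by
  unfold arcs
  split_ifs with h <;> simp [h]

theorem getD_lt {N : ℕ} {l : List (ℕ × ℕ)} (h : InRange N l) {k : ℕ} (hk : k < l.length) :
    (l.getD k (0, 0)).1 < N ∧ (l.getD k (0, 0)).2 < N := by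
  rw [List.getD_eq_getElem _ _ hk]
  exact h _ (List.getElem_mem hk)

theorem sym_sub {N : ℕ} {l : List (ℕ × ℕ)} (h : InRange N l) : Sym (N + l.length) (sub N l) := by
  have h1 : ∀ a ∈ sub N l, ∃ k < l.length, a ∈ arcs (l.getD k (0, 0)) (N + k) := fun a ha => by
    simpa only [sub, List.mem_flatMap, List.mem_range] using ha
  refine ⟨?_, fun a ha => ?_, fun a ha => ?_, fun a ha => ?_⟩
  · rw [sub, List.nodup_flatMap]
    refine ⟨fun k hk => ?_, List.nodup_range.imp_of_mem fun {k k'} hk hk' hne a h1 h2 => ?_⟩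
    · obtain ⟨b1, b2⟩ := getD_lt h (List.mem_range.1 hk)
      unfold arcs
      split_ifs with e
      · exact List.nodup_nil
      · simp only [List.nodup_cons, List.mem_cons, Prod.mk.injEq, List.not_mem_nil, or_false,
          not_false_eq_true, List.nodup_nil, and_true]
        omega
    · obtain ⟨b1, b2⟩ := getD_lt h (List.mem_range.1 hk)
      obtain ⟨b3, b4⟩ := getD_lt h (List.mem_range.1 hk')
      obtain ⟨-, h1⟩ := mem_arcs.1 h1
      obtain ⟨-, h2⟩ := mem_arcs.1 h2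
      simp only [Prod.ext_iff] at h1 h2
      omega
  · obtain ⟨k, hk, ha⟩ := h1 a ha
    obtain ⟨b1, b2⟩ := getD_lt h hk
    obtain ⟨-, ha⟩ := mem_arcs.1 ha
    simp only [Prod.ext_iff] at ha
    omega
  · obtain ⟨k, hk, ha⟩ := h1 a ha
    obtain ⟨b1, b2⟩ := getD_lt h hk
    obtain ⟨-, ha⟩ := mem_arcs.1 ha
    simp only [Prod.ext_iff] at ha
    omega
  · obtain ⟨k, hk, ha⟩ := h1 a ha
    simp only [sub, List.mem_flatMap, List.mem_range]
    refine ⟨k, hk, ?_⟩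
    obtain ⟨b, ha⟩ := mem_arcs.1 ha
    refine mem_arcs.2 ⟨b, ?_⟩
    rcases ha with rfl | rfl | rfl | rfl <;> simp

theorem ct_sub (N : ℕ) (l : List (ℕ × ℕ)) (f : ℕ → Bool) : (ct (sub N l) f : ℝ) =
    ∑ k ∈ range l.length, (ct (arcs (l.getD k (0, 0)) (N + k)) f : ℝ) := by
  rw [ct_cast, sub, sum_map_flatMap, ← List.sum_toFinset _ List.nodup_range, List.toFinset_range]
  simp only [ct_cast]

theorem ct_arcs (e : ℕ × ℕ) (z : ℕ) (f : ℕ → Bool) :
    2 * (if f e.1 = f e.2 then (0 : ℝ) else 1) ≤ ct (arcs e z) f ∧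
      (f z = f e.1 → (ct (arcs e z) f : ℝ) ≤ 2 * (if f e.1 = f e.2 then (0 : ℝ) else 1)) := by
  rw [ct_cast, arcs]
  by_cases h : e.1 = e.2
  · simp [h]
  · simp only [if_neg h, List.map_cons, List.map_nil, List.sum_cons, List.sum_nil]
    cases f e.1 <;> cases f e.2 <;> cases f z <;> norm_num

theorem ct_congr {N : ℕ} {l : List (ℕ × ℕ)} (h : InRange N l) {f g : ℕ → Bool}
    (e : ∀ i < N, f i = g i) : ct l f = ct l g :=
  List.countP_congr fun a ha => by rw [e _ (h a ha).1, e _ (h a ha).2]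

theorem PT_sub : PT ∅ fun p : ℕ × List (ℕ × ℕ) => sub p.1 p.2 := by
  have h1 : PT ∅ fun q : (ℕ × List (ℕ × ℕ)) × ℕ => q.1.2.getD q.2 (0, 0) :=
    PT.getD PT.fst'.snd PT.snd' (PT.const _)
  have h2 : PT ∅ fun q : (ℕ × List (ℕ × ℕ)) × ℕ => q.1.1 + q.2 := PT.fst'.fst.add PT.snd'
  exact PT.flatMap (PT.range PT.snd'.length (PBd.length (A := ∅) PT.snd'))
    (PT.ite (PT.eqNat h1.fst h1.snd) PT.nil ((h1.fst.pair h2).cons ((h2.pair h1.fst).cons
      ((h1.snd.pair h2).cons ((h2.pair h1.snd).cons PT.nil)))))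

theorem Sym.mono {N N' : ℕ} {l : List (ℕ × ℕ)} (h : Sym N l) (hN : N ≤ N') : Sym N' l :=
  ⟨h.nodup, fun e he => ⟨(h.lt e he).1.trans_le hN, (h.lt e he).2.trans_le hN⟩, h.ne, h.swap⟩

theorem red_sub (C β : ℝ) : Red (SC InRange 1 C β) (SC Sym 2 C β) := by
  have hW : ∀ G : Dat, WD G → WD (G.1, ⟨G.2.1.v + G.2.2.1.length⟩, sub G.2.1.v G.2.2.1, G.2.2.2) :=
    fun G h => ⟨h.pos, h.sym.mono (Nat.le_add_right _ _), h.mat, h.ne⟩
  refine ⟨fun G => (G.1, ⟨G.2.1.v + G.2.2.1.length⟩, sub G.2.1.v G.2.2.1, G.2.2.2),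
    PT.fst'.pair ((PT.mkUn (PT.snd'.fst.unVal.add PT.snd'.snd.fst.length)
      ((PBd.unVal (A := ∅) PT.snd'.fst).add (PBd.length (A := ∅) PT.snd'.snd.fst))).pair
      ((PT_sub.comp (PT.snd'.fst.unVal.pair PT.snd'.snd.fst)).pair PT.snd'.snd.snd)),
    fun G ⟨⟨h, hR⟩, f, f1, f2⟩ => ⟨⟨hW G h, sym_sub hR⟩, ?_⟩,
    fun G ⟨⟨h, hR⟩, hf⟩ => ⟨⟨hW G h, sym_sub hR⟩, fun f f1 => ?_⟩⟩
  · obtain ⟨g, g1, g2⟩ : ∃ g : ℕ → Bool, (∀ i < G.2.1.v, g i = f i) ∧
        ∀ k, g (G.2.1.v + k) = f (G.2.2.1.getD k (0, 0)).1 :=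
      ⟨fun i => if i < G.2.1.v then f i else f (G.2.2.1.getD (i - G.2.1.v) (0, 0)).1,
        fun i hi => if_pos hi, fun k => by simp⟩
    refine ⟨g, fun e he => ?_, ?_⟩
    · rw [g1 _ (h.sym.lt e he).1, g1 _ (h.sym.lt e he).2]
      exact f1 e he
    rw [← ct_congr hR g1, one_mul, ← Nat.cast_le (α := ℝ), ct_cast,
      sum_map_eq_sum_range _ (0, 0)] at f2
    rw [← Nat.cast_le (α := ℝ), ct_sub]
    refine (sum_le_sum fun k hk => (ct_arcs _ _ g).2 ?_).trans ?_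
    · rw [g2, g1 _ (getD_lt hR (mem_range.1 hk)).1]
    · rw [← mul_sum]
      push_cast
      linarith
  · have h1 := hf f f1
    rw [ct_cast, sum_map_eq_sum_range _ (0, 0)] at h1
    rw [ct_sub]
    refine lt_of_lt_of_le ?_ (sum_le_sum fun k _ => (ct_arcs _ _ f).1)
    rw [← mul_sum]
    push_cast at h1 ⊢
    linarith

theorem hard_sym (C : ℝ) {β : ℝ} (hβ : 0 < β) : Hard (SC Sym 2 C β) :=
  (hard_sc C hβ).red (red_sub C β)

end Vale.Agent.N318U
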